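import Crest.Agent.X212.Dir17.Main
import Crest.Agent.X212.Cok75.Fam

/-!
# Row 212, NT-CKI (helper17): the curvature equation inside a lens wall is regular
-/

set_option autoImplicit false
set_option linter.unusedSectionVars false
noncomputable section
open scoped Manifold ContDiff Topology InnerProductSpace
open MeasureTheory Set Function Filter

namespace Crest.Agent.X212.Dir17
open An An.Pre Sob92 Prm93 Fred93 Map77 Mod61 Nk89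

section fam
variable {E : Type} [NormedAddCommGroup E] [NormedSpace ℝ E] [FiniteDimensional ℝ E]
  [MeasurableSpace E] [BorelSpace E]
  {HM : Type} [TopologicalSpace HM] {I : ModelWithCorners ℝ E HM} [I.Boundaryless]
  {M : Type} [TopologicalSpace M] [ChartedSpace HM M] [IsManifold I ∞ M]
  [MeasurableSpace M] [T2Space M] [BorelSpace M] [SecondCountableTopology M]
  {κ lam : Type} [Fintype κ] [Fintype lam] {T : Type} [NormedAddCommGroup T] [NormedSpace ℝ T]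
  {𝔉 : Fam I M (Option κ) lam T} {δ : ℝ} {o : Ref 𝔉} {r n m k : ℕ}

theorem cki_y (X : Ends 𝔉 δ) (y : Pnt o r) (e : y.cfg.Φ = 0) (hk : 6 ≤ k)
    (hp : ∀ x ∈ 𝔉.Om, Lns95.PosW 𝔉.B (𝔉.G y.t) (1 / 2) x)
    (hA : ∀ x ∈ 𝔉.Om, o.m.p2 𝔉.B x (o.m.Fg (𝔉.G y.t).F (o.W y.t y.α) x) = 0)
    {f : o.C r k → o.Y n m k} (hf : RepF (𝔉.eq0 r n m) f) (w : 𝔉.F0.H k o.P2) :
    ∃ α, (fderiv ℝ f (y.pt k) (α, 0, 0)).2.1 = w := by
  have h := X.ok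
  have a := adj_rem h
  have H0 := a.hy o y.ht
  have H1 := Cok75.hy_Ω o h h.Om (a.tw _ y.ht) (a.P _ y.ht)
  have cb : 𝔉.F0.Cb (base (o.W y.t y.α) 0) := uy0 h y e ▸ cb_uy h y
  have C1 : Wz78.Cp (Cok75.bΩ 𝔉.Om o) (Fs 𝔉 y.t) (𝔉.G y.t).F.Gam (o.W y.t y.α) :=
    let C := (Wz78.cp_of h.B (h.G _ y.ht) o.ok (y.ad0 h).conn).ind h.Om isClopen_empty
    ⟨C.ok, C.P, C.lc, C.so, C.sρ, C.sg, C.ssp, C.ssm, C.con, C.sk, C.g, C.sp, C.sm, C.ρ⟩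
  obtain ⟨x, hx⟩ := Cok75.surj_Ω X h.Om y hp hA k (iH2 _ _ _ o.P2 w)
  obtain ⟨Z, hZ⟩ : ∃ Z, Z = iH1 _ (k + 1) o.P1 o.Pp (fH _ _ _ _ x) := ⟨_, rfl⟩
  have e1 : R2 (bd o) 𝔉.F0 (Fs 𝔉 y.t) k (o.W y.t y.α) Z = w := by
    have r1 := rep2 (k := k) H1 C1 cb
    have r0 := RepT_comp (RepT_comp (rep2 (k := k) H0 (cp_y h y) cb) rep_iH1)
      (rep_fH (p := o.P1) (q := (Cok75.bΩ 𝔉.Om o).sp))
    refine ((congrArg _ hZ).trans (DFunLike.congr_fun (RepT_eq r1 r0 fun _ => rfl).symm x)).trans ?_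
    change sH _ _ _ _ (sH _ _ _ _ (Bd.FF _ _ _ _ _ x)) = w
    rw [H1.FF_eq cb, map_add, sH_iH1, sH_iH2, zero_add, hx]
    exact sH_iH2 w
  have b : sH _ _ o.P1 o.Pp (SH (k + 1) o (𝔉.Si y.t) Z) = 0 := hZ ▸
    DFunLike.congr_fun (RepT_eq (RepT_comp (RepT_comp rep_sH (rep_SH' o h y.ht)) rep_iH1) RepT_zero
      fun u => funext fun x => by simp [SC]) _
  refine ⟨(sC' o r k y.t Z).1, Eq.trans ?_ e1⟩
  have c : ((sC' o r k y.t Z).1, 0, 0) = sC' o r k y.t Z := Prod.ext rfl (Prod.ext b.symm rfl)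
  change _ = sH _ k o.Pm o.P2 (sH _ k o.Pg _ ((bd o).FF _ _ k (base (o.W y.t y.α) 0) Z))
  rw [c, ← uy0 h y e, ← Nat27.TT_eq h hk hf y]
  simp [TG, sY_apply]

end fam

section scene
open M G75 Ins26 Rf65 Nt66 Abx52 Pte3
variable {κ lam : Type} [Fintype κ] [Fintype lam] [DecidableEq lam] {Lm : LM κ lam}
  {S : Scene Lm} {D : S.Dat} {i : S.L} {Wi : Type} {r n : ℕ}
  {J : Job Wi (D.Λ i) (S.A ⊕ Unit) S.ls r n} {l : S.ls} {σ : Cel (S.A ⊕ Unit)} {c : S.M.Cl}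
  {δ : ℝ} {X : Finset S.A} {Adm : (Wi →₀ ℝ) → Prop} {n₀ : ℤ} {q : Wi →₀ ℝ} {y : J.Obc c}
  {b : Bp J c} {E : EW J c X σ l b δ} {x : Pnt E.o r} {ψ : E.K}

theorem cki_at {n' : ℕ} (K : Lns95.LOK Lm n') (C : Cx X σ Adm n₀ q y l E x ψ) : Nt66.Cki C :=
  fun _ _ hg => cki_y (Cht98.jEnds C.cs.ok b.br b.O (sm_θ b)
    (An.Job.isClopen_un fun _ e => mem_singleton_iff.1 e ▸ pc C)
    (An.Job.isClopen_un fun _ e => mem_singleton_iff.1 e ▸ pc C) Subset.rfl C.cs.eo.d0 C.cs.eo.d1)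
    (C.xi Subset.rfl) (xi_Φ C Subset.rfl) (by norm_num) (fun z hz => by
      have g := sg C
      change Lns95.PosW (J.B c) (J.G c (b.θ _ _ x.t)) (1 / 2) z
      rw [C.θ]
      exact K.posW g.sc D l (C.sol.br g.ok g.mem) ((show (J.Θ y.s).2 l = 1 from
        C.sol.inf.ge (g.c1.ge rfl)) ▸ one_ne_zero) i Lns4.neck (C.sol.ok g.ok g.mem).2 J.m
        (om_eq C ▸ hz : z ∈ Lns95.Om D c l)) (fun z hz => by
      change E.o.m.p2 (J.B c) z (E.o.m.Fg (J.G c (b.θ _ _ x.t)).F _ z) = 0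
      rw [C.θ]
      exact xi_asd C Subset.rfl hz) hg

/-- **LEAF CKI** -/
theorem cki {n' : ℕ} (K : Lns95.LOK Lm n') : NfStmt Lm Nt66.Cki :=
  fun _ _ _ _ _ _ _ _ _ _ _ _ _ _ _ _ => ⟨1, one_pos, fun _ _ => .of fun _ _ _ _ _ _ _ _ _ C =>
    cki_at K C⟩

end scene

end Crest.Agent.X212.Dir17
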