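import Crest.Agent.X212.Dir17.Blk
import Crest.Agent.X212.Nat27.Ix
import Crest.Agent.X212.Abx52.Main

/-!
# Row 212, NT-DIR (helper17): the Dirac operator inside a lens wall
-/

set_option autoImplicit false
set_option linter.unusedSectionVars false
noncomputable section
open scoped Manifold ContDiff Topology InnerProductSpace
open MeasureTheory Set Function Filter

namespace Crest.Agent.X212.Dir17
open An Sob92 Prm93 Fred93 Map77 Mod61 Nk89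

section fam
variable {E : Type} [NormedAddCommGroup E] [NormedSpace ℝ E] [FiniteDimensional ℝ E]
  [MeasurableSpace E] [BorelSpace E]
  {HM : Type} [TopologicalSpace HM] {I : ModelWithCorners ℝ E HM} [I.Boundaryless]
  {M : Type} [TopologicalSpace M] [ChartedSpace HM M] [IsManifold I ∞ M]
  [MeasurableSpace M] [T2Space M] [BorelSpace M] [SecondCountableTopology M]
  {ι lam : Type} [Fintype ι] [Fintype lam] {T : Type} [NormedAddCommGroup T] [NormedSpace ℝ T]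
  {𝔉 : Fam I M ι lam T} (h : 𝔉.OK) {o : Ref 𝔉} {r n m k : ℕ} (y : Pnt o r)
include h

theorem cp_y : Wz78.Cp (bd o) (Fs 𝔉 y.t) (𝔉.G y.t).F.Gam (o.W y.t y.α) :=
  let C := (Wz78.cp_of h.B (h.G _ y.ht) o.ok (y.ad0 h).conn).ind h.Om h.Om'
  ⟨C.ok, C.P, C.lc, C.so, C.sρ, C.sg, C.ssp, C.ssm, C.con, C.sk, C.g, C.sp, C.sm, C.ρ⟩

variable (e : y.cfg.Φ = 0)
include e

theorem uy0 : uy y = base (o.W y.t y.α) 0 := congrArg _ e

theorem pk_y (hk : 6 ≤ k) {d : ℤ} (H : Idx k (𝔉.eq0 r n m) y d) :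
    Pk (bd o) 𝔉.F0 (Fs 𝔉 y.t) k (𝔉.G y.t).F.Gam (o.W y.t y.α) d :=
  ⟨(adj_rem h).hy o y.ht, cp_y h y, uy0 h y e ▸ cb_uy h y, uy0 h y e ▸ Nat27.idx_ff h hk H⟩

theorem L0_eq (hk : 6 ≤ k) {f : o.C r k → o.Y n m k} (hf : RepF (𝔉.eq0 r n m) f)
    (φ : 𝔉.F0.H (k + 1) o.Pp) :
    (fderiv ℝ f (y.pt k) (0, φ, 0)).1 = DH (bd o) 𝔉.F0 (Fs 𝔉 y.t) k (o.W y.t y.α) φ := by
  have a : SH (k + 1) o (𝔉.Si y.t) (iH2 _ _ o.P1 o.Pp φ) = iH2 _ _ o.P1 o.Pp φ :=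
    DFunLike.congr_fun (RepT_eq (RepT_comp (rep_SH' o h y.ht) rep_iH2) rep_iH2
      fun u => funext fun x => ext2 (by simp [SC]) (by simp [SC])) φ
  have b : sC' o r k y.t (iH2 _ _ o.P1 o.Pp φ) = (0, φ, 0) := by simp [sC', a]
  change _ = fH _ k o.Pm o.P2 (sH _ k o.Pg _ ((bd o).FF _ _ k (base (o.W y.t y.α) 0) (iH2 _ _ o.P1 o.Pp φ)))
  rw [← uy0 h y e, ← Nat27.TT_eq h hk hf y]
  simp [TG, b, sY_apply]

theorem inj_y (hk : 4 ≤ k) (hp : ∀ x ∈ 𝔉.Om', Lns95.PosP 𝔉.B (𝔉.G y.t) 1 x)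
    (hA : ∀ x ∈ 𝔉.Om', o.m.p2 𝔉.B x (o.m.Fg (𝔉.G y.t).F (o.W y.t y.α) x) = 0) :
    Injective (DH (bd o) 𝔉.F0 (Fs 𝔉 y.t) k (o.W y.t y.α)) :=
  inj_DH ((adj_rem h).hy o y.ht) (cp_y h y) (uy0 h y e ▸ cb_uy h y) hk fun _ c p d =>
    van h.B (h.G _ y.ht) o.ok (y.ad0 h).conn (Mp86.bumps_of_tame _ (h.tameG _ y.ht).choose_spec)
      hp hA c.choose_spec.1 (fun x => ind_fix (p x)) (fun x => ind_off (p x)) d
      (c.choose_spec.2 0 [] le_rfl)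

end fam

section scene
open M G75 Ins26 Rf65 Nt66 Abx52 Pte3
variable {κ lam : Type} [Fintype κ] [Fintype lam] [DecidableEq lam] {Lm : LM κ lam}
  {S : Scene Lm} {D : S.Dat} {i : S.L} {Wi : Type} {r n : ℕ}
  {J : Job Wi (D.Λ i) (S.A ⊕ Unit) S.ls r n} {l : S.ls} {σ : Cel (S.A ⊕ Unit)} {c : S.M.Cl}
  {δ : ℝ} {X : Finset S.A} {Adm : (Wi →₀ ℝ) → Prop} {n₀ : ℤ} {q : Wi →₀ ℝ} {y : J.Obc c}
  {b : Bp J c} {E : EW J c X σ l b δ} {x : Pnt E.o r} {ψ : E.K}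
  (C : Cx X σ Adm n₀ q y l E x ψ) {P' : Set (Reg S.A)} (k : P' ⊆ {hp l.1 false})
include C k

/-- the family inside -/
theorem ok_in : (b.F (sp (pW J c (shX S X) σ l.1) {hp l.1 false} P' ∅) (UW J c l) δ).OK :=
  (Cht98.jEnds C.cs.ok b.br b.O (sm_θ b) (An.Job.isClopen_un fun _ e => mem_singleton_iff.1 e ▸ pc C)
    (An.Job.isClopen_un fun _ e => k e ▸ pc C) (biUnion_subset_biUnion_left k) C.cs.eo.d0
    C.cs.eo.d1).ok

omit k in
theorem y_Φ {z} (hz : z ∈ Om D c l) : y.x.Φ z = 0 :=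
  An.Job.Obc.zero C.fa.2.1 (An.un_one D.W.toCaps c (hp l.1 false) ▸ hz)

omit k in
theorem cs_y {z} (hz : z ∈ Om D c l) (u : CL y.x.m.V E.o.m.V) (ζ : ℂ) :
    cs E.o.m.J ζ (u (y.x.Φ z)) = 0 := by simp [y_Φ C hz, cs]

/-- no spinor inside -/
theorem xi_Φ : (C.xi k).cfg.Φ = 0 := funext fun z => by
  obtain ⟨u, ζ, e, -⟩ := C.gd.ch.rep.e
  refine (zero_add _).trans (indicator_apply_eq_zero.2 fun hz => ?_)
  have m : z ∈ Om D c l := biUnion_subset_biUnion_left k hz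
  simpa [Pnt.cfg, C.gd.ch.z] using!
    (e.Φ z (biUnion_subset_biUnion_left sub_in m)).trans (cs_y C m _ _)

/-- the connection inside -/
theorem xi_W (a) {z} (hz : z ∈ Om D c l) : (C.xi k).cfg.W a z = x.cfg.W a z := by
  have e : (C.xi k).α z = x.α z := indicator_of_mem hz _
  simp only [Pnt.cfg, Ref.W, Md.addC, Ref.A_eq, e]
  rfl

/-- the point inside represents `y` -/
theorem xi_eq : ∃ u ζ, Mod61.EqOn (J.B c) (J.G c y.s).F (Om D c l) y.x (C.xi k).cfg u ζ := by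
  obtain ⟨u, ζ, e, -⟩ := C.gd.ch.rep.e
  rw [C.θ] at e
  have e := Wrd81.ceq_mono e (biUnion_subset_biUnion_left sub_in : Om D c l ⊆ _)
  exact ⟨u, ζ, e.m, fun z hz a => by simpa only [id, xi_W C k _ hz] using! e.W z hz a,
    fun z hz => (congrFun (xi_Φ C k) z).trans (cs_y C hz _ _).symm, e.z⟩

/-- anti-self-dual inside -/
theorem xi_asd {z} (hz : z ∈ Om D c l) :
    E.o.m.p2 (J.B c) z (E.o.m.Fg (J.G c y.s).F (C.xi k).cfg.W z) = 0 := by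
  obtain ⟨u, ζ, e⟩ := xi_eq C k
  have h := ok_in C k
  have a : Eqv71.Ad0 (C.xi k).cfg (J.B c) (J.G c (b.θ _ _ x.t)) := (C.xi k).ad0 h
  have g : (J.G c (b.θ _ _ x.t)).OK (J.B c) := h.G _ x.ht
  rw [C.θ] at a g
  refine (Eqv71.ceq_p2F (Eqv71.lg_refl h.B g h.Om.2) (Eqv71.ad0 C.sol.sol.toAdm) a e hz).trans ?_
  have t := ((sg C).qt C.sol.cell C.sol.ov (pc C) (if_pos rfl) q y.x z
    (An.un_one D.W.toCaps c (hp l.1 false) ▸ hz)).2
  have := C.sol.sol.C z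
  rw [Cfg.eC, t, y_Φ C hz, show y.x.m.mu (J.B c) z 0 0 = 0 by
    simp [Md.mu, Md.q, rk1, ← Pi.zero_def], sub_zero, sub_zero] at this
  exact (congrArg _ this).trans (map_zero _)

omit k in
theorem dir_at (K : Lns95.LOK Lm 4) (hK : ∀ σ, |K.k σ| ≤ 4) : Nt66.Dir C := fun ⟨_, h0, h1⟩ => by
  have g := sg C
  have o0 := ok_in C (empty_subset _)
  have o1 := ok_in C Subset.rfl
  have e0 := xi_Φ C (empty_subset _)
  have e1 := xi_Φ C Subset.rfl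
  have z : ∀ z, z ∉ D.W.un c ∅ := fun z => by simp [Caps.un]
  have p1 := pk_y o1 _ e1 (by norm_num) h1
  have f := fr_DH (sp := (rf E x.t {hp l.1 false} ∅ ∅).Pp) (sm := (rf E x.t {hp l.1 false} ∅ ∅).Pm)
    (by exact pk_y o0 _ e0 (by norm_num) h0) p1 (by norm_num)
    (fun w => indicator_of_notMem (z w) _) fun w => indicator_of_notMem (z w) _
  have j := inj_y o1 (C.xi Subset.rfl) e1 (k := 8) (by norm_num) (fun z hz => by
    change Lns95.PosP (J.B c) (J.G c (b.θ _ _ x.t)) 1 z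
    rw [C.θ]
    exact K.posP g.sc D l (C.sol.br g.ok g.mem) ((show (J.Θ y.s).2 l = 1 from
      C.sol.inf.ge (g.c1.ge rfl)) ▸ one_ne_zero) i Lns4.neck (C.sol.ok g.ok g.mem).2 J.m
      (om_eq C ▸ hz : z ∈ Lns95.Om D c l) hK) fun z hz => by
    change E.o.m.p2 (J.B c) z (E.o.m.Fg (J.G c (b.θ _ _ x.t)).F _ z) = 0
    rw [C.θ]
    exact xi_asd C Subset.rfl hz
  exact ⟨f.nonpos_of_inj j, fun k g hg e => ((f.cast ((f.nonpos_of_inj j).antisymm k)).surj_of_inj j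
    e).imp fun φ hφ => (L0_eq o1 _ e1 (by norm_num) hg φ).trans hφ⟩

omit C k in
/-- **LEAF DIR** -/
theorem dir (H : ∃ K : Lns95.LOK Lm 4, ∀ σ, |K.k σ| ≤ 4) : NfStmt Lm Nt66.Dir :=
  fun _ _ _ _ _ _ _ _ _ _ _ _ _ _ _ _ => ⟨1, one_pos, fun _ _ => .of fun _ _ _ _ _ _ _ _ _ C =>
    dir_at C H.choose H.choose_spec⟩

end scene

end Crest.Agent.X212.Dir17
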