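import Crest.Agent.X212.Map77.Qm
import Crest.Agent.X212.Wz78.Boch
import Crest.Agent.X212.Lns95.Pos

/-!
# Row 212, NT-DIR (helper17): the Dirac block of the gauge fixed linearisation at `Φ = 0`
-/

set_option autoImplicit false
set_option linter.unusedSectionVars false
noncomputable section
open scoped Manifold ContDiff Topology InnerProductSpace
open MeasureTheory Set Function Filter

namespace Crest.Agent.X212.Dir17
open An An.Pre Sob92 Ell97 Prm93 Fred93 Map77 Wz78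

section fa
variable {X Y Z V : Type*} [NormedAddCommGroup X] [NormedSpace ℝ X] [NormedAddCommGroup Y]
  [NormedSpace ℝ Y] [NormedAddCommGroup Z] [NormedSpace ℝ Z] [NormedAddCommGroup V] [NormedSpace ℝ V]
  {A : X →L[ℝ] Y} {D : Z →L[ℝ] V} {n : ℤ}

theorem split (h : Fr (A.prodMap D) n) : Fr A (Fred93.ind A) ∧ Fr D (n - Fred93.ind A) := by
  obtain ⟨v, h1, h2⟩ := h.1.exists_isQuasiInverse
  have k1 := LinearMap.FiniteRangeSetoid.equiv_iff_hasNoetherianRange.1 h1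
  have k2 := LinearMap.FiniteRangeSetoid.equiv_iff_hasNoetherianRange.1 h2
  have a : A.IsFredholm := isFredholm_of_quasi (.fst ℝ X Z ∘L v ∘L .inl ℝ Y V)
    (noeth_congr ((k1.comp_right (LinearMap.inl ℝ X Z)).comp_left (LinearMap.fst ℝ X Z))
      fun x => by simp)
    (noeth_congr ((k2.comp_right (LinearMap.inl ℝ Y V)).comp_left (LinearMap.fst ℝ Y V))
      fun x => by simp)
  have b : D.IsFredholm := isFredholm_of_quasi (.snd ℝ X Z ∘L v ∘L .inr ℝ Y V)
    (noeth_congr ((k1.comp_right (LinearMap.inr ℝ X Z)).comp_left (LinearMap.snd ℝ X Z))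
      fun x => by simp)
    (noeth_congr ((k2.comp_right (LinearMap.inr ℝ Y V)).comp_left (LinearMap.snd ℝ Y V))
      fun x => by simp)
  exact ⟨.of a, (Fr.of b).cast (eq_sub_of_add_eq' (((Fr.of a).prodMap (.of b)).unique h))⟩

end fa

variable {E : Type} [NormedAddCommGroup E] [NormedSpace ℝ E] [FiniteDimensional ℝ E]
  [MeasurableSpace E] [BorelSpace E]
  {HM : Type} [TopologicalSpace HM] {I : ModelWithCorners ℝ E HM} [I.Boundaryless]
  {M : Type} [TopologicalSpace M] [ChartedSpace HM M] [IsManifold I ∞ M]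
  [MeasurableSpace M] [T2Space M] [BorelSpace M] [SecondCountableTopology M]

section blk
variable {ι ι' κ : Type} [Fintype ι] [Fintype ι'] [Fintype κ] [DecidableEq κ]
  (d : Bd M ι κ) (F : Fr I M ι') (G : Fr I M ι) (k : ℕ) (Γ : ι → ι → ι → M → ℝ) (W : ι → M → En κ)

/-- the Coulomb row on forms -/
def rowF (α : M → Fm ι (HS κ)) (x : M) : HS κ :=
  ∑ a, cov I G.e Γ (adw W) (fun b y => α y b) a a x + ∑ j, dft G Γ j x • α x j

/-- the curvature row on forms -/
def crvF (α : M → Fm ι (HS κ)) (x : M) : Fm (ι × ι) (HS κ) :=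
  d.p2 x (WithLp.toLp 2 fun s => cov I G.e Γ (adw W) (fun b y => α y b) s.1 s.2 x
    - cov I G.e Γ (adw W) (fun b y => α y b) s.2 s.1 x)

/-- the three rows -/
abbrev R1 : F.H (k + 1) d.pC →L[ℝ] F.H k d.g := fH _ k d.g d.pE ∘L d.FF F.toPre G k (base W 0)
abbrev R2 : F.H (k + 1) d.pC →L[ℝ] F.H k d.p2 :=
  sH _ k d.sm d.p2 ∘L sH _ k d.g d.pE ∘L d.FF F.toPre G k (base W 0)
abbrev R3 : F.H (k + 1) d.pC →L[ℝ] F.H k d.sm :=
  fH _ k d.sm d.p2 ∘L sH _ k d.g d.pE ∘L d.FF F.toPre G k (base W 0)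

/-- other spinor bundles -/
abbrev ns (sp sm : M → En κ) : Bd M ι κ := ⟨d.P, d.o, d.ρ, d.g, d.p1, d.p2, sp, sm⟩

/-- the block of the forms -/
def AH : F.H (k + 1) d.p1 →L[ℝ] F.H k d.g × F.H k d.p2 :=
  (R1 d F G k W ∘L iH1 _ _ d.p1 d.sp).prod (R2 d F G k W ∘L iH1 _ _ d.p1 d.sp)

/-- the Dirac block -/
def DH : F.H (k + 1) d.sp →L[ℝ] F.H k d.sm := R3 d F G k W ∘L iH2 _ _ d.p1 d.sp

/-- the gauge fixed linearisation at `(W, 0)` has the index `n` -/
structure Pk (n : ℤ) : Prop where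
  hy : d.Hy F G
  cp : Cp d G Γ W
  cb : F.Cb (base W 0)
  fr : Fr (d.FF F.toPre G k (base W 0)) n

variable {d F G k Γ W} (H : d.Hy F G) (C : Cp d G Γ W) (cb : F.Cb (base W 0))
include H C cb

theorem rep1 : F.Rep (R1 d F G k W) fun u => rowF G Γ W fun y => fa (u y) :=
  RepT_congr (RepT_comp rep_fH (H.rep (H.nc_full cb) k)) fun u => funext fun x =>
    (C.full_row (u.2.1 x) u.2.2.2 0).trans (by simp [rowF, rk1])

theorem rep2 : F.Rep (R2 d F G k W) fun u => crvF d G Γ W fun y => fa (u y) :=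
  RepT_congr (RepT_comp rep_sH (RepT_comp rep_sH (H.rep (H.nc_full cb) k))) fun u => funext fun x =>
    (C.full_crv (u.2.1 x) u.2.2.2 0).trans (by simp [crvF, rk1])

theorem rep3 : F.Rep (R3 d F G k W) fun u => dir I G.e d.ρ W fun y => fp (u y) :=
  RepT_congr (RepT_comp rep_fH (RepT_comp rep_sH (H.rep (H.nc_full cb) k))) fun u => funext fun x =>
    (C.full_dir (u.2.1 x) u.2.2.2 0).trans (by simp)

theorem blk (x : F.H (k + 1) d.pC) : ((R1 d F G k W x, R2 d F G k W x), R3 d F G k W x) =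
    (AH d F G k W).prodMap (DH d F G k W) (sumH _ _ _ _ x) :=
  Prod.ext (Prod.ext
    (DFunLike.congr_fun (RepT_eq (rep1 H C cb)
      (RepT_comp (RepT_comp (rep1 H C cb) rep_iH1) rep_fH) fun _ => rfl) x)
    (DFunLike.congr_fun (RepT_eq (rep2 H C cb)
      (RepT_comp (RepT_comp (rep2 H C cb) rep_iH1) rep_fH) fun _ => rfl) x))
    (DFunLike.congr_fun (RepT_eq (rep3 H C cb)
      (RepT_comp (RepT_comp (rep3 H C cb) rep_iH2) rep_sH) fun _ => rfl) x)

theorem fr_pm {n : ℤ} (h : Fr (d.FF F.toPre G k (base W 0)) n) :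
    Fr ((AH d F G k W).prodMap (DH d F G k W)) n :=
  (h.conj (sumH _ _ _ _).symm (((sumH _ k d.g d.pE).trans ((ContinuousLinearEquiv.refl ℝ _).prodCongr
    ((sumH _ k d.sm d.p2).trans (.prodComm ℝ _ _)))).trans
      (ContinuousLinearEquiv.prodAssoc ℝ _ _ _).symm)).congr fun x =>
    ((congrArg _ ((sumH _ _ _ _).apply_symm_apply x)).symm.trans (blk H C cb _).symm).trans rfl

omit H C cb in
/-- the index of the Dirac block -/
theorem fr_DH {sp sm : M → En κ} {a n : ℤ} (h0 : Pk (ns d sp sm) F G k Γ W a)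
    (h1 : Pk d F G k Γ W (a + n)) (hk : 4 ≤ k) (z : ∀ x, sp x = 0) (z' : ∀ x, sm x = 0) :
    Fr (DH d F G k W) n := by
  obtain ⟨H', C', cb, h0⟩ := h0
  obtain ⟨H, C, -, h1⟩ := h1
  have s : ∀ {p : M → En κ} {j}, 4 ≤ j → (∀ x, p x = 0) → ∀ u v : F.H j p, u = v := fun hj hp u v =>
    val_injective H.sup hj (funext fun x => by
      rw [← val_proj H.sup hj u, ← val_proj H.sup hj v, hp]; rfl)
  have e : AH (ns d sp sm) F G k W = AH d F G k W := congrArg₂ _
    (RepT_eq (RepT_comp (rep1 H' C' cb) rep_iH1) (RepT_comp (rep1 H C cb) rep_iH1) fun _ => rfl)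
    (RepT_eq (RepT_comp (rep2 H' C' cb) rep_iH1) (RepT_comp (rep2 H C cb) rep_iH1) fun _ => rfl)
  have k0 := (split (fr_pm H' C' cb h0)).2.unique (.of_bijective
    ⟨fun u v _ => s (by omega) z u v, fun v => ⟨0, s hk z' _ v⟩⟩)
  rw [e] at k0
  exact (split (fr_pm H C cb h1)).2.cast (by omega)

/-- the kernel of the Dirac block consists of bounded smooth harmonic spinors -/
theorem inj_DH (hk : 4 ≤ k) (h : ∀ φ, F.Cb φ → (∀ x, d.sp x (φ x) = φ x) →
    dir I G.e d.ρ W φ = 0 → φ = 0) : Injective (DH d F G k W) := by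
  refine (injective_iff_map_eq_zero _).2 fun φ hφ => ?_
  have b := blk H C cb (iH2 _ _ d.p1 d.sp φ)
  rw [sumH_apply, fH_iH2, sH_iH2, ContinuousLinearMap.coe_prodMap', Prod.map, map_zero, hφ] at b
  have e : d.FF F.toPre G k (base W 0) (iH2 _ _ d.p1 d.sp φ) = 0 :=
    H_ext2 ((congrArg (·.1.1) b).trans (map_zero _).symm) (H_ext2
      ((congrArg (·.2) b).trans (by simp)) ((congrArg (·.1.2) b).trans (by simp)))
  have c : F.Cb (F.val _ _ (iH2 _ _ d.p1 d.sp φ)) := Cb_val H.sup (by omega) fun j hj => by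
    obtain ⟨j, rfl⟩ : ∃ i, j = i + 1 := ⟨j - 1, by omega⟩
    exact H.reg (H.nc_full cb) (H.cliffL_full H.P _) (by omega) (w := 0) (e.trans (map_zero _).symm)
  have v : (d.full G (base W 0)).app G (F.val _ _ (iH2 _ _ d.p1 d.sp φ)) = 0 :=
    (H.val (H.nc_full cb) hk (iH2 _ _ d.p1 d.sp φ)).symm.trans ((congrArg _ e).trans val_zero)
  have p := val_proj H.sup (by omega : 4 ≤ k + 1) (iH2 _ _ d.p1 d.sp φ)
  have q := h (fun y => fp (F.val _ _ (iH2 _ _ d.p1 d.sp φ) y)) (Cb_clm fp c) (fun x => maps_s2 x _ (p x))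
    (funext fun x => by simpa [v] using (C.full_dir (c.choose_spec.1 x) p 0).symm)
  refine val_injective H.sup (by omega : 4 ≤ k + 1) (Eq.trans ?_ (q.trans val_zero.symm))
  funext x
  rw [iH2, val_mulH H.sup (by omega) (Cb_const _) maps_i2]
  rfl

end blk

section van
variable {ι lam : Type} [Fintype ι] [Fintype lam] {m : Md M ι lam} {B : Base M ι lam}
  {G : Geo I M ι lam} {W : m.Cn} {N : Set M} {φ : M → m.V} {C : ℝ}

/-- bounded harmonic spinors of an anti-self-dual connection on a positive component vanish -/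
theorem van (hB : B.OK I) (hG : G.OK B) (H : m.OK I B) (c : m.IsConn B G W)
    (hb : Mp86.Bumps I G.F.e G.F.dv) (hp : ∀ x ∈ N, Lns95.PosP B G 1 x)
    (hA : ∀ x ∈ N, m.p2 B x (m.Fg G.F W x) = 0) (hs : Sm I φ) (pp : ∀ x, m.pp B x (φ x) = φ x)
    (h0 : ∀ x ∉ N, φ x = 0) (hD : dir I G.F.e m.ρ W φ = 0) (hC : ∀ x, ‖φ x‖ ≤ C) : φ = 0 := by
  have key := Mp86.maxp_bdd hb (S := ∅) finite_empty (by simp) (f := fun x => ‖φ x‖ ^ 2) (m := 0)
    (C := C ^ 2) (Mp86.vf G.F.toPre) (by simp) (by simp) (fun x _ => Mp86.cm_normSq (Mp86.cm2 hs x))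
    (fun x _ => pow_le_pow_left₀ (norm_nonneg _) (hC x) 2) fun δ hδ => ⟨δ, hδ, fun x _ hx => ?_⟩
  · exact funext fun x => norm_eq_zero.1 (pow_eq_zero_iff two_ne_zero |>.1
      ((key x (notMem_empty x)).antisymm (sq_nonneg _)))
  have hN : x ∈ N := by_contra fun k => by simp [h0 x k, hδ.not_ge] at hx
  have w := congrArg (fun v => ⟪v, φ x⟫_ℝ) (c.cc.weitz (glc hG) (gfrm hG) (dv_gam hG.vol x) (hs x)
    (.of_forall fun y => by rw [← pp y, ← mul_apply_eq_comp, p_pp H]))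
  have z : dir I G.F.e m.ρ W 0 x = 0 := by simp [dir, nab]
  simp only [hD, z, inner_zero_left, inner_add_left, inner_wK hB hG H c (pp x)] at w
  rw [← p2_mu hB, ← inner_p2 hB, hA x hN, inner_zero_left, real_inner_self_eq_norm_sq] at w
  have h1 := ((hp x hN).fP hB).le hB H (φ x)
  rw [Mp86.Lop_normSq (A := W) (Mp86.vf G.F.toPre x) (fun a => Mp86.cm1 (c.cc.sm a) x)
    (fun a => .of_forall (c.sk a)) (Mp86.cm2 hs x)]
  have h6 : Mp86.LA I G.F.e G.F.dv W φ x = -Wz78.lap I G.F.e G.F.dv W φ x := by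
    rw [Wz78.lap, neg_neg]; rfl
  have h7 : 0 ≤ ∑ a, ‖Mp86.cd I (G.F.e a) (W a) φ x‖ ^ 2 := Finset.sum_nonneg fun _ _ => sq_nonneg _
  rw [h6, inner_neg_left]
  linarith

end van

end Crest.Agent.X212.Dir17
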